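import Mathlib

/-!
P080: infinity-harmonic functions in the viscosity sense.
-/

open InnerProductSpace Set

noncomputable section

namespace Vale.Agent.P080.SemiCvx

variable {d : ℕ}

/-- The infinity Laplacian `⟨D²φ ∇φ, ∇φ⟩`. -/
def infLap (φ : EuclideanSpace ℝ (Fin d) → ℝ) (z : EuclideanSpace ℝ (Fin d)) : ℝ :=
  fderiv ℝ (fderiv ℝ φ) z (gradient φ z) (gradient φ z)

/-- A viscosity solution of `Δ_∞ u = 0` on `Ω`, tested with all `C²` functions. -/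
def IsInfHarmonic (Ω : Set (EuclideanSpace ℝ (Fin d))) (u : EuclideanSpace ℝ (Fin d) → ℝ) : Prop :=
  ContinuousOn u Ω ∧ ∀ φ : EuclideanSpace ℝ (Fin d) → ℝ, ContDiff ℝ 2 φ → ∀ z ∈ Ω,
    (IsLocalMax (fun x => u x - φ x) z → 0 ≤ infLap φ z) ∧
    (IsLocalMin (fun x => u x - φ x) z → infLap φ z ≤ 0)

end Vale.Agent.P080.SemiCvx
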