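import Vale.Agent.P080.SemiCvx.Def

/-!
P080: gradient modulus for semiconvex and semiconcave infinity-harmonic functions.
-/

open InnerProductSpace Set Filter Metric
open scoped Topology RealInnerProductSpace

noncomputable section

namespace Vale.Agent.P080.SemiCvx

variable {d : ℕ}


section quad

variable (p q y : EuclideanSpace ℝ (Fin d)) (a η : ℝ)

/-- The test quadratic. -/
def quad (x : EuclideanSpace ℝ (Fin d)) : ℝ :=
  ⟪p, x - y⟫ + a * ⟪q, x - y⟫ ^ 2 - η * ‖x - y‖ ^ 2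

lemma contDiff_quad : ContDiff ℝ 2 (quad p q y a η) := by
  have hw : ContDiff ℝ 2 fun x : EuclideanSpace ℝ (Fin d) => x - y := contDiff_id.sub contDiff_const
  exact ((contDiff_const.inner ℝ hw).add
    (contDiff_const.mul ((contDiff_const.inner ℝ hw).pow 2))).sub
      (contDiff_const.mul (hw.norm_sq ℝ))

lemma hasFDerivAt_quad (x : EuclideanSpace ℝ (Fin d)) :
    HasFDerivAt (quad p q y a η)
      (innerSL ℝ p + (2 * a * ⟪q, x - y⟫) • innerSL ℝ q - (2 * η) • innerSL ℝ (x - y)) x := by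
  have hw : HasFDerivAt (fun x : EuclideanSpace ℝ (Fin d) => x - y)
      (ContinuousLinearMap.id ℝ (EuclideanSpace ℝ (Fin d))) x :=
    (hasFDerivAt_id x).sub_const y
  have h1 := (innerSL ℝ p).hasFDerivAt.comp x hw
  have h2 := (innerSL ℝ q).hasFDerivAt.comp x hw
  refine ((h1.add ((h2.pow 2).const_mul a)).sub (hw.norm_sq.const_mul η)).congr_fderiv ?_
  ext v
  simp
  ring

lemma fderiv_quad : fderiv ℝ (quad p q y a η) = fun x =>
    innerSL ℝ p + (2 * a * ⟪q, x - y⟫) • innerSL ℝ q - (2 * η) • innerSL ℝ (x - y) :=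
  funext fun x => (hasFDerivAt_quad p q y a η x).fderiv

lemma gradient_quad (x : EuclideanSpace ℝ (Fin d)) :
    gradient (quad p q y a η) x = p + (2 * a * ⟪q, x - y⟫) • q - (2 * η) • (x - y) := by
  refine (hasGradientAt_iff_hasFDerivAt.2 ((hasFDerivAt_quad p q y a η x).congr_fderiv ?_)).gradient
  ext v
  simp

lemma hess_quad (x v : EuclideanSpace ℝ (Fin d)) :
    fderiv ℝ (fderiv ℝ (quad p q y a η)) x v v = 2 * a * ⟪q, v⟫ ^ 2 - 2 * η * ‖v‖ ^ 2 := by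
  rw [fderiv_quad]
  have hw : HasFDerivAt (fun x : EuclideanSpace ℝ (Fin d) => x - y)
      (ContinuousLinearMap.id ℝ (EuclideanSpace ℝ (Fin d))) x :=
    (hasFDerivAt_id x).sub_const y
  have h := (((((innerSL ℝ q).hasFDerivAt.comp x hw).const_mul (2 * a)).smul_const
    (innerSL ℝ q)).const_add (innerSL ℝ p)).sub
      (((innerSL ℝ (E := EuclideanSpace ℝ (Fin d))).hasFDerivAt.comp x hw).const_smul (2 * η))
  have h' : HasFDerivAt (fun x => innerSL ℝ p + (2 * a * ⟪q, x - y⟫) • innerSL ℝ q -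
      (2 * η) • innerSL ℝ (x - y)) _ x :=
    h.congr_of_eventuallyEq (Eventually.of_forall fun z => by simp)
  rw [h'.fderiv]
  simp
  rw [show ∀ w : EuclideanSpace ℝ (Fin d), innerSL ℝ w w = ‖w‖ ^ 2 from
    fun w => real_inner_self_eq_norm_sq w]
  ring

end quad

variable {Ω : Set (EuclideanSpace ℝ (Fin d))} {u : EuclideanSpace ℝ (Fin d) → ℝ}
  {x₀ : EuclideanSpace ℝ (Fin d)} {R Λ M : ℝ}

/-- `p` is a semi-subgradient of `u` at `y` on the ball. -/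
def SubAt (u : EuclideanSpace ℝ (Fin d) → ℝ) (x₀ : EuclideanSpace ℝ (Fin d)) (R Λ : ℝ)
    (y p : EuclideanSpace ℝ (Fin d)) : Prop :=
  ∀ x ∈ ball x₀ R, u y + ⟪p, x - y⟫ - Λ / 2 * ‖x - y‖ ^ 2 ≤ u x

lemma exists_subAt (hc : ContinuousOn u (ball x₀ R))
    (hcv : ConvexOn ℝ (ball x₀ R) fun x => u x + Λ / 2 * ‖x - x₀‖ ^ 2)
    {y : EuclideanSpace ℝ (Fin d)} (hy : y ∈ ball x₀ R) : ∃ p, SubAt u x₀ R Λ y p := by
  set φ := fun x => u x + Λ / 2 * ‖x - x₀‖ ^ 2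
  set T := {z : EuclideanSpace ℝ (Fin d) × ℝ | z.1 ∈ ball x₀ R ∧ φ z.1 < z.2}
  have hφc : ContinuousOn φ (ball x₀ R) := hc.add (Continuous.continuousOn (by fun_prop))
  have hTo : IsOpen T := by
    have h1 : ContinuousOn (fun z : EuclideanSpace ℝ (Fin d) × ℝ => φ z.1 - z.2)
        (Prod.fst ⁻¹' ball x₀ R) :=
      (hφc.comp continuous_fst.continuousOn fun z hz => hz).sub continuous_snd.continuousOn
    have := h1.isOpen_inter_preimage (isOpen_ball.preimage continuous_fst) (isOpen_Iio (a := (0 : ℝ)))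
    convert this using 1
    ext z
    simp [T, sub_neg]
  obtain ⟨F, hF⟩ := geometric_hahn_banach_open_point (x := (y, φ y)) hcv.convex_strict_epigraph hTo
    (fun h => lt_irrefl _ h.2)
  set l : EuclideanSpace ℝ (Fin d) →L[ℝ] ℝ :=
    F.comp (ContinuousLinearMap.inl ℝ (EuclideanSpace ℝ (Fin d)) ℝ)
  set c := F (0, 1)
  have hFeq : ∀ x t, F (x, t) = l x + t * c := by
    intro x t
    have : (x, t) = (x, (0 : ℝ)) + t • ((0 : EuclideanSpace ℝ (Fin d)), (1 : ℝ)) := by simp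
    rw [this, map_add, map_smul]
    rfl
  have hc0 : c < 0 := by
    have := hF (y, φ y + 1) ⟨hy, by linarith⟩
    rw [hFeq, hFeq] at this
    linarith
  set p' := (-c)⁻¹ • (toDual ℝ (EuclideanSpace ℝ (Fin d))).symm l with hp'
  have hsub : ∀ x ∈ ball x₀ R, φ y + ⟪p', x - y⟫ ≤ φ x := by
    intro x hx
    refine le_of_forall_pos_le_add fun ε hε => ?_
    have := hF (x, φ x + ε) ⟨hx, by linarith⟩
    rw [hFeq, hFeq] at this
    have e : ⟪p', x - y⟫ = (-c)⁻¹ * (l x - l y) := by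
      rw [hp', real_inner_smul_left, toDual_symm_apply, map_sub]
    rw [e]
    have h2 : (-c)⁻¹ * (l x - l y) ≤ φ x + ε - φ y := by
      rw [inv_mul_le_iff₀ (neg_pos.2 hc0)]; linarith
    linarith
  refine ⟨p' - Λ • (y - x₀), fun x hx => ?_⟩
  have h := hsub x hx
  have e : ‖x - x₀‖ ^ 2 = ‖x - y‖ ^ 2 + 2 * ⟪x - y, y - x₀⟫ + ‖y - x₀‖ ^ 2 := by
    rw [← norm_add_sq_real, sub_add_sub_cancel]
  simp only [φ] at h
  rw [inner_sub_left, real_inner_smul_left (y - x₀) (x - y) Λ, real_inner_comm (x - y) (y - x₀)]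
  rw [e] at h
  linarith

lemma SubAt.norm_le {y p : EuclideanSpace ℝ (Fin d)} (hp : SubAt u x₀ R Λ y p) (hR : 0 < R)
    (hy : y ∈ ball x₀ (R / 2)) (hΛ : 0 ≤ Λ)
    (hM : ∀ x ∈ ball x₀ R, ∀ x' ∈ ball x₀ R, u x - u x' ≤ M) : ‖p‖ ≤ 2 * M / R + Λ * R / 4 := by
  have hM0 : 0 ≤ M := by simpa using hM x₀ (mem_ball_self hR) x₀ (mem_ball_self hR)
  rcases eq_or_ne p 0 with rfl | hp0
  · rw [norm_zero]; positivity
  have hn : 0 < ‖p‖ := norm_pos_iff.2 hp0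
  set s := R / 2
  set x := y + (s / ‖p‖) • p
  have hxy : x - y = (s / ‖p‖) • p := by simp [x]
  have hxn : ‖x - y‖ = s := by
    rw [hxy, norm_smul, Real.norm_eq_abs, abs_of_nonneg (by positivity), div_mul_cancel₀ _ hn.ne']
  have hx : x ∈ ball x₀ R := by
    rw [mem_ball, dist_eq_norm]
    rw [mem_ball, dist_eq_norm] at hy
    calc ‖x - x₀‖ ≤ ‖x - y‖ + ‖y - x₀‖ := norm_sub_le_norm_sub_add_norm_sub _ _ _
      _ < R := by rw [hxn]; linarith [show s = R / 2 from rfl]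
  have hy' : y ∈ ball x₀ R := ball_subset_ball (by linarith [show s = R / 2 from rfl]) hy
  have h1 := hp x hx
  have h2 := hM x hx y hy'
  have e : ⟪p, x - y⟫ = s * ‖p‖ := by
    rw [hxy, real_inner_smul_right, real_inner_self_eq_norm_sq]; field_simp
  rw [e, hxn] at h1
  refine le_of_mul_le_mul_left ?_ (show 0 < s by positivity)
  calc s * ‖p‖ ≤ M + Λ / 2 * s ^ 2 := by linarith
    _ = _ := by simp only [s]; field_simp; ring

/-- The lower bound on the sphere of radius `r`, from two semi-subgradients. -/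
lemma sphere_ineq {p₁ p₂ w D : EuclideanSpace ℝ (Fin d)} {t r Λ a U U₂ n : ℝ}
    (hΛ : 0 ≤ Λ) (ht : 1 / 4 ≤ t) (ht' : t ≤ 3 / 4) (hw : ‖w‖ = r) (hD : ‖D‖ ≤ r)
    (hn : n = ‖p₂ - p₁‖) (hn0 : 0 < n) (hr : 0 < r) (ha : a = 1 / (32 * n * r))
    (i1 : ⟪p₁, w⟫ - Λ / 2 * r ^ 2 ≤ U)
    (i2 : U₂ + ⟪p₂, w - D⟫ - Λ / 2 * ‖w - D‖ ^ 2 ≤ U)
    (i3 : ⟪p₁, D⟫ - Λ / 2 * ‖D‖ ^ 2 ≤ U₂) :
    ⟪p₁ + t • (p₂ - p₁), w⟫ + a * ⟪p₂ - p₁, w⟫ ^ 2 - (n * ‖D‖ + 3 * Λ * r ^ 2) ≤ U := by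
  subst hn
  set q := p₂ - p₁ with hq
  set X := ⟪q, w⟫
  have i4 : ‖w - D‖ ^ 2 ≤ 4 * r ^ 2 := by
    refine (pow_le_pow_left₀ (norm_nonneg _) ((norm_sub_le w D).trans
      (show ‖w‖ + ‖D‖ ≤ 2 * r by linarith)) 2).trans (le_of_eq ?_)
    ring
  have i6 : ‖D‖ ^ 2 ≤ r ^ 2 := pow_le_pow_left₀ (norm_nonneg _) hD 2
  have i5 : ⟪q, D⟫ ≤ ‖q‖ * ‖D‖ := real_inner_le_norm q D
  have e1 : ⟪p₂, w - D⟫ + ⟪p₁, D⟫ = ⟪p₁, w⟫ + X - ⟪q, D⟫ := by
    simp only [X, hq, inner_sub_left, inner_sub_right]; ring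
  have e2 : ⟪p₁ + t • q, w⟫ = ⟪p₁, w⟫ + t * X := by
    rw [inner_add_left, real_inner_smul_left]
  have j1 := mul_le_mul_of_nonneg_left i4 hΛ
  have j2 := mul_le_mul_of_nonneg_left i6 hΛ
  have j3 : 0 ≤ Λ * r ^ 2 := mul_nonneg hΛ (sq_nonneg r)
  have j4 : 0 ≤ ‖q‖ * ‖D‖ := mul_nonneg (norm_nonneg _) (norm_nonneg _)
  have f4 : a * X ^ 2 ≤ |X| / 32 := by
    have : |X| ≤ ‖q‖ * r := (abs_real_inner_le_norm q w).trans_eq (by rw [hw])
    calc a * X ^ 2 = a * |X| * |X| := by rw [mul_assoc, abs_mul_abs_self, sq]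
      _ ≤ a * |X| * (‖q‖ * r) := by
          refine mul_le_mul_of_nonneg_left this (mul_nonneg ?_ (abs_nonneg _))
          rw [ha]; positivity
      _ = _ := by rw [ha]; field_simp
  rw [e2]
  rcases le_total 0 X with hs | hs
  · have := mul_le_mul_of_nonneg_right ht' hs
    rw [abs_of_nonneg hs] at f4
    linarith
  · have := mul_le_mul_of_nonpos_right ht hs
    rw [abs_of_nonpos hs] at f4
    linarith

/-- At an interior minimum the infinity Laplacian of the test quadratic is positive. -/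
lemma interior_pos {q pt w : EuclideanSpace ℝ (Fin d)} {P r a η n : ℝ} (hn : n = ‖q‖) (hn0 : 0 < n)
    (hr : 0 < r) (hP : 0 < P) (hnP : n ≤ 2 * P) (ha : a = 1 / (32 * n * r))
    (hη : η = n ^ 3 / (73728 * P ^ 2 * r)) (hw : ‖w‖ ≤ r) (hpt : ‖pt‖ ≤ P)
    (hq : n ^ 2 / 4 ≤ |⟪q, pt⟫|) :
    0 < 2 * a * ⟪q, pt + (2 * a * ⟪q, w⟫) • q - (2 * η) • w⟫ ^ 2
      - 2 * η * ‖pt + (2 * a * ⟪q, w⟫) • q - (2 * η) • w‖ ^ 2 := by
  subst hn
  set n := ‖q‖
  set X := ⟪q, w⟫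
  set G := pt + (2 * a * X) • q - (2 * η) • w
  have hn2 : n ^ 2 ≤ 4 * P ^ 2 := (pow_le_pow_left₀ hn0.le hnP 2).trans_eq (by ring)
  have hη0 : 0 < η := by rw [hη]; positivity
  have ha0 : 0 < a := by rw [ha]; positivity
  have hηr : 2 * η * r ≤ n / 9216 := by
    have h := mul_le_mul_of_nonneg_left hn2 (mul_nonneg hn0.le hr.le)
    rw [hη, mul_div_assoc', div_mul_eq_mul_div, div_le_div_iff₀ (by positivity) (by norm_num)]
    linarith
  have hX : |X| ≤ n * ‖w‖ := abs_real_inner_le_norm q w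
  have ha2 : |2 * a * X| ≤ 1 / 16 := by
    rw [abs_mul, abs_of_pos (by positivity : 0 < 2 * a)]
    calc 2 * a * |X| ≤ 2 * a * (n * r) := by
          gcongr; exact hX.trans (mul_le_mul_of_nonneg_left hw hn0.le)
      _ = _ := by rw [ha]; field_simp; ring
  have h2η : 2 * η * ‖w‖ ≤ n / 9216 := le_trans (by gcongr) hηr
  have hG : ‖G‖ ≤ 2 * P := by
    refine (norm_sub_le _ _).trans ?_
    have e1 : ‖(2 * η) • w‖ = 2 * η * ‖w‖ := by
      rw [norm_smul, Real.norm_eq_abs, abs_of_pos (by positivity)]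
    have e2 : ‖(2 * a * X) • q‖ ≤ 1 / 16 * n := by
      rw [norm_smul, Real.norm_eq_abs]; gcongr
    linarith [norm_add_le pt ((2 * a * X) • q)]
  have hqG : n ^ 2 / 8 ≤ |⟪q, G⟫| := by
    have e : ⟪q, G⟫ = ⟪q, pt⟫ + (2 * a * X) * n ^ 2 - 2 * η * X := by
      simp only [G, X, n, inner_sub_right, inner_add_right, real_inner_smul_right,
        real_inner_self_eq_norm_sq]
    have e1 : |(2 * a * X) * n ^ 2| ≤ 1 / 16 * n ^ 2 := by
      rw [abs_mul, abs_of_nonneg (sq_nonneg n)]; gcongr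
    have e2 : |2 * η * X| ≤ n ^ 2 / 9216 := by
      rw [abs_mul, abs_of_pos (by positivity : 0 < 2 * η)]
      calc 2 * η * |X| ≤ 2 * η * (n * ‖w‖) := by gcongr
        _ = n * (2 * η * ‖w‖) := by ring
        _ ≤ n * (n / 9216) := by gcongr
        _ = _ := by ring
    have h5 : |⟪q, pt⟫| ≤ |⟪q, G⟫| + |(2 * a * X) * n ^ 2| + |2 * η * X| := by
      refine le_trans (le_of_eq ?_) ((abs_add_le _ _).trans (add_le_add (abs_sub _ _) le_rfl))
      rw [e]; ring_nf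
    linarith [sq_nonneg n]
  have h6 : 2 * a * (n ^ 2 / 8) ^ 2 ≤ 2 * a * ⟪q, G⟫ ^ 2 :=
    mul_le_mul_of_nonneg_left
      ((pow_le_pow_left₀ (by positivity) hqG 2).trans_eq (sq_abs _)) (by positivity)
  have h7 : 2 * η * ‖G‖ ^ 2 ≤ 2 * η * (2 * P) ^ 2 := by gcongr
  have e1 : 2 * η * (2 * P) ^ 2 = n ^ 3 / r / 9216 := by rw [hη]; field_simp; ring
  have e2 : 2 * a * (n ^ 2 / 8) ^ 2 = n ^ 3 / r / 1024 := by rw [ha]; field_simp; ring
  have : 0 < n ^ 3 / r := by positivity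
  linarith

/-- The key comparison: two semi-subgradients at nearby points are close. -/
lemma key (h : IsInfHarmonic Ω u) (hsub : ball x₀ R ⊆ Ω) (hΛ : 0 ≤ Λ)
    {y₁ y₂ p₁ p₂ : EuclideanSpace ℝ (Fin d)} (hy₁ : y₁ ∈ ball x₀ (R / 2)) (hy₂ : y₂ ∈ ball x₀ R)
    (h₁ : SubAt u x₀ R Λ y₁ p₁) (h₂ : SubAt u x₀ R Λ y₂ p₂) {P : ℝ} (hP₁ : ‖p₁‖ ≤ P)
    (hP₂ : ‖p₂‖ ≤ P) {r : ℝ} (hr : 0 < r) (hrR : r ≤ R / 2) :
    ‖p₂ - p₁‖ ^ 2 * r ≤ 147456 * P ^ 2 * ‖y₂ - y₁‖ ∨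
      ‖p₂ - p₁‖ ^ 3 ≤ 442368 * P ^ 2 * Λ * r := by
  by_contra! hcon
  obtain ⟨hA, hB⟩ := hcon
  set q := p₂ - p₁
  set n := ‖q‖
  set δ := ‖y₂ - y₁‖
  have hn : 0 < n := by
    rcases eq_or_lt_of_le (norm_nonneg q) with h0 | h0
    · have : n = 0 := h0.symm
      rw [this] at hA
      nlinarith [norm_nonneg (y₂ - y₁), sq_nonneg P]
    · exact h0
  have hnP : n ≤ 2 * P := (norm_sub_le _ _).trans (by linarith)
  have hP : 0 < P := by linarith
  have hδr : δ ≤ r := by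
    have h1 : n ^ 2 * r ≤ (2 * P) ^ 2 * r :=
      mul_le_mul_of_nonneg_right (pow_le_pow_left₀ hn.le hnP 2) hr.le
    by_contra hc
    have h2 := mul_lt_mul_of_pos_left (not_le.1 hc) (mul_pos (by norm_num : (0:ℝ) < 147456) (pow_pos hP 2))
    linarith [mul_pos (pow_pos hP 2) hr]
  set η := n ^ 3 / (73728 * P ^ 2 * r) with hη
  set a := 1 / (32 * n * r) with ha
  have hg : n * δ + 3 * Λ * r ^ 2 < η * r ^ 2 := by
    have e : η * r ^ 2 = n ^ 3 * r / (73728 * P ^ 2) := by rw [hη]; field_simp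
    rw [e, lt_div_iff₀ (by positivity)]
    linarith [mul_lt_mul_of_pos_left hA hn, mul_lt_mul_of_pos_right hB hr]
  obtain ⟨t, ht, ht', hpt⟩ : ∃ t : ℝ, 1 / 4 ≤ t ∧ t ≤ 3 / 4 ∧ n ^ 2 / 4 ≤ |⟪q, p₁ + t • q⟫| := by
    have e : ∀ t : ℝ, ⟪q, p₁ + t • q⟫ = ⟪q, p₁⟫ + t * n ^ 2 := fun t => by
      rw [inner_add_right, real_inner_smul_right, real_inner_self_eq_norm_sq]
    by_cases hq : n ^ 2 / 4 ≤ |⟪q, p₁⟫ + 1 / 4 * n ^ 2|
    · exact ⟨1 / 4, le_rfl, by norm_num, by rw [e]; exact hq⟩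
    · refine ⟨3 / 4, by norm_num, le_rfl, ?_⟩
      rw [e, le_abs]
      left
      linarith [(abs_lt.1 (not_le.1 hq)).1]
  set pt := p₁ + t • q with hptdef
  have hptP : ‖pt‖ ≤ P := by
    have e : pt = (1 - t) • p₁ + t • p₂ := by simp [pt, q, sub_smul, smul_sub]; abel
    rw [e]
    refine (norm_add_le _ _).trans ?_
    rw [norm_smul, norm_smul, Real.norm_eq_abs, Real.norm_eq_abs, abs_of_nonneg (by linarith),
      abs_of_nonneg (by linarith)]
    calc (1 - t) * ‖p₁‖ + t * ‖p₂‖ ≤ (1 - t) * P + t * P := by gcongr; linarith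
      _ = P := by ring
  have hsubK : closedBall y₁ r ⊆ ball x₀ R := by
    intro x hx
    rw [mem_closedBall] at hx
    rw [mem_ball] at hy₁ ⊢
    linarith [dist_triangle x y₁ x₀]
  set φ := quad pt q y₁ a η
  have hbdy : ∀ x, ‖x - y₁‖ = r → u y₁ - φ y₁ < u x - φ x := by
    intro x hx
    have hxb : x ∈ ball x₀ R := hsubK (by rw [mem_closedBall, dist_eq_norm, hx])
    have i1 := h₁ x hxb
    have i2 := h₂ x hxb
    have i3 := h₁ y₂ hy₂
    rw [hx] at i1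
    rw [show x - y₂ = (x - y₁) - (y₂ - y₁) by simp] at i2
    have hk := sphere_ineq (U := u x - u y₁) (U₂ := u y₂ - u y₁) hΛ ht ht' hx hδr rfl hn hr ha
      (by linarith) (by linarith) (by linarith)
    have e3 : φ y₁ = 0 := by simp [φ, quad]
    have e4 : φ x = ⟪pt, x - y₁⟫ + a * ⟪q, x - y₁⟫ ^ 2 - η * r ^ 2 := by simp only [φ, quad, hx]
    rw [e3, e4]
    linarith
  have hcont : ContinuousOn (fun x => u x - φ x) (closedBall y₁ r) :=
    (h.1.mono (hsubK.trans hsub)).sub (contDiff_quad pt q y₁ a η).continuous.continuousOn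
  obtain ⟨z, hz, hzmin⟩ := (isCompact_closedBall y₁ r).exists_isMinOn
    ⟨y₁, mem_closedBall_self hr.le⟩ hcont
  have hzr : ‖z - y₁‖ < r := by
    rw [mem_closedBall, dist_eq_norm] at hz
    refine lt_of_le_of_ne hz fun he => ?_
    exact absurd (hzmin (mem_closedBall_self hr.le)) (not_le.2 (hbdy z he))
  have hloc : IsLocalMin (fun x => u x - φ x) z :=
    hzmin.isLocalMin (closedBall_mem_nhds_of_mem (by rwa [mem_ball, dist_eq_norm]))
  have hlap := (h.2 φ (contDiff_quad pt q y₁ a η) z (hsub (hsubK hz))).2 hloc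
  simp only [infLap, φ, hess_quad, gradient_quad] at hlap
  exact absurd hlap (not_le.2 (interior_pos rfl hn hr hP hnP ha hη hzr.le hptP hpt))

/-- The modulus of continuity of semi-subgradients. -/
lemma subAt_dist (h : IsInfHarmonic Ω u) (hsub : ball x₀ R ⊆ Ω) (hR : 0 < R) (hΛ : 0 ≤ Λ)
    (hM : ∀ x ∈ ball x₀ R, ∀ x' ∈ ball x₀ R, u x - u x' ≤ M)
    {y₁ y₂ p₁ p₂ : EuclideanSpace ℝ (Fin d)} (hy₁ : y₁ ∈ ball x₀ (R / 2))
    (hy₂ : y₂ ∈ ball x₀ (R / 2)) (h₁ : SubAt u x₀ R Λ y₁ p₁) (h₂ : SubAt u x₀ R Λ y₂ p₂) :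
    ‖p₂ - p₁‖ ≤ 1000 * (2 * M / R + Λ * R / 4) * (‖y₂ - y₁‖ / R) ^ ((1 : ℝ) / 5) ∧
    (Λ = 0 → ‖p₂ - p₁‖ ≤ 1000 * (2 * M / R) * √(‖y₂ - y₁‖ / R)) := by
  set P := 2 * M / R + Λ * R / 4 with hPdef
  have hP₁ : ‖p₁‖ ≤ P := h₁.norm_le hR hy₁ hΛ hM
  have hP₂ : ‖p₂‖ ≤ P := h₂.norm_le hR hy₂ hΛ hM
  have hP : 0 ≤ P := (norm_nonneg _).trans hP₁
  have hM0 : 0 ≤ M := by simpa using hM x₀ (mem_ball_self hR) x₀ (mem_ball_self hR)
  have hΛP : Λ * R ≤ 4 * P := by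
    rw [hPdef]; have : 0 ≤ 2 * M / R := by positivity
    linarith
  set n := ‖p₂ - p₁‖
  set s := ‖y₂ - y₁‖ / R with hs
  have hn : 0 ≤ n := norm_nonneg _
  have hs0 : 0 ≤ s := by positivity
  have hs1 : s ≤ 1 := by
    rw [hs, div_le_one hR, ← dist_eq_norm]
    rw [mem_ball] at hy₁ hy₂
    linarith [dist_triangle_right y₂ y₁ x₀]
  have hkey := fun {r : ℝ} (hr : 0 < r) (hrR : r ≤ R / 2) =>
    key h hsub hΛ hy₁ (ball_subset_ball (by linarith) hy₂) h₁ h₂ hP₁ hP₂ hr hrR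
  have hhalf : n ^ 2 * (R / 2) ≤ 147456 * P ^ 2 * ‖y₂ - y₁‖ → n ≤ 1000 * P * √s := by
    intro hc
    refine (pow_le_pow_iff_left₀ hn (by positivity) two_ne_zero).1 ?_
    rw [mul_pow _ (√s), Real.sq_sqrt hs0]
    have : n ^ 2 ≤ 294912 * P ^ 2 * s := by
      rw [hs, mul_div_assoc', le_div_iff₀ hR]; linarith
    nlinarith [mul_nonneg (sq_nonneg P) hs0]
  have hsqrt : √s ≤ s ^ ((1 : ℝ) / 5) := by
    rcases eq_or_lt_of_le hs0 with h0 | h0
    · rw [← h0]; simp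
    · rw [Real.sqrt_eq_rpow]; exact Real.rpow_le_rpow_of_exponent_ge h0 hs1 (by norm_num)
  refine ⟨?_, fun h0 => ?_⟩
  · rcases eq_or_lt_of_le hn with h0 | hnpos
    · rw [← h0]; positivity
    have hPpos : 0 < P := by
      have : n ≤ 2 * P := (norm_sub_le _ _).trans (by linarith)
      linarith
    by_cases hcase : 884736 * P ^ 2 * Λ * (R / 2) ≤ n ^ 3
    · rcases hkey (half_pos hR) le_rfl with hA | hB
      · exact (hhalf hA).trans (by gcongr)
      · exfalso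
        nlinarith [pow_pos hnpos 3]
    · push Not at hcase
      have hΛ0 : 0 < Λ := by
        rcases eq_or_lt_of_le hΛ with h0 | h0
        · rw [← h0, mul_zero, zero_mul] at hcase
          exact absurd hcase (not_lt.2 (by positivity))
        · exact h0
      set r := n ^ 3 / (884736 * P ^ 2 * Λ) with hr
      have hr0 : 0 < r := by positivity
      have hrR : r ≤ R / 2 := by rw [hr, div_le_iff₀ (by positivity)]; linarith
      rcases hkey hr0 hrR with hA | hB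
      · have h5 : n ^ 5 ≤ (1000 * P) ^ 5 * s := by
          rw [hr, mul_div_assoc', div_le_iff₀ (by positivity)] at hA
          have e : ‖y₂ - y₁‖ = R * s := by rw [hs]; field_simp
          rw [e] at hA
          calc n ^ 5 = n ^ 2 * n ^ 3 := by ring
            _ ≤ 147456 * P ^ 2 * (R * s) * (884736 * P ^ 2 * Λ) := hA
            _ = 147456 * 884736 * P ^ 4 * s * (Λ * R) := by ring
            _ ≤ 147456 * 884736 * P ^ 4 * s * (4 * P) := by gcongr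
            _ ≤ _ := by nlinarith [mul_nonneg (pow_nonneg hP 5) hs0]
        refine (pow_le_pow_iff_left₀ hn (by positivity) (by norm_num : (5 : ℕ) ≠ 0)).1 ?_
        rw [mul_pow _ (s ^ ((1 : ℝ) / 5)), ← Real.rpow_natCast (s ^ ((1 : ℝ) / 5)) 5,
          ← Real.rpow_mul hs0]
        norm_num
        exact h5.trans_eq (by ring)
      · exfalso
        rw [hr] at hB
        field_simp at hB
        nlinarith [pow_pos hnpos 3]
  · subst h0
    have e : P = 2 * M / R := by rw [hPdef]; ring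
    rcases hkey (half_pos hR) le_rfl with hA | hB
    · exact (hhalf hA).trans_eq (by rw [e])
    · rw [mul_zero, zero_mul] at hB
      rw [le_antisymm ((pow_le_pow_iff_left₀ hn le_rfl three_ne_zero).1 (by simpa using hB)) hn]
      positivity

/-- Semiconvex infinity-harmonic functions have Hölder continuous gradient. -/
theorem semiconvex_gradient (h : IsInfHarmonic Ω u) (hsub : ball x₀ R ⊆ Ω) (hR : 0 < R)
    (hΛ : 0 ≤ Λ) (hM : ∀ x ∈ ball x₀ R, ∀ x' ∈ ball x₀ R, u x - u x' ≤ M)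
    (hcv : ConvexOn ℝ (ball x₀ R) fun x => u x + Λ / 2 * ‖x - x₀‖ ^ 2) :
    (∀ y ∈ ball x₀ (R / 2), DifferentiableAt ℝ u y) ∧
    ∀ y₁ ∈ ball x₀ (R / 2), ∀ y₂ ∈ ball x₀ (R / 2),
      ‖gradient u y₂ - gradient u y₁‖ ≤
          1000 * (2 * M / R + Λ * R / 4) * (‖y₂ - y₁‖ / R) ^ ((1 : ℝ) / 5) ∧
      (Λ = 0 → ‖gradient u y₂ - gradient u y₁‖ ≤ 1000 * (2 * M / R) * √(‖y₂ - y₁‖ / R)) := by
  have hc := h.1.mono hsub
  have hgrad : ∀ y ∈ ball x₀ (R / 2),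
      ∃ p, SubAt u x₀ R Λ y p ∧ HasGradientAt u p y := by
    intro y hy
    obtain ⟨p, hp⟩ := exists_subAt hc hcv (ball_subset_ball (by linarith) hy)
    refine ⟨p, hp, ?_⟩
    rw [hasGradientAt_iff_isLittleO, Asymptotics.isLittleO_iff]
    intro c hc0
    set C := 1000 * (2 * M / R + Λ * R / 4)
    have hlim : Tendsto (fun x => C * (‖x - y‖ / R) ^ ((1 : ℝ) / 5) + Λ / 2 * ‖x - y‖) (𝓝 y)
        (𝓝 0) := by
      have h1 : Continuous fun x : EuclideanSpace ℝ (Fin d) => ‖x - y‖ := by fun_prop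
      have h2 : Continuous fun x : EuclideanSpace ℝ (Fin d) =>
          C * (‖x - y‖ / R) ^ ((1 : ℝ) / 5) + Λ / 2 * ‖x - y‖ :=
        (((h1.div_const R).rpow_const fun _ => Or.inr (by norm_num)).const_mul C).add
          (h1.const_mul _)
      simpa using h2.tendsto y
    filter_upwards [hlim (Iio_mem_nhds hc0), isOpen_ball.mem_nhds hy] with x hxc hxb
    obtain ⟨px, hpx⟩ := exists_subAt hc hcv (ball_subset_ball (by linarith) hxb)
    have i1 := hp x (ball_subset_ball (by linarith) hxb)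
    have i2 := hpx y (ball_subset_ball (by linarith) hy)
    have i3 : ‖px - p‖ ≤ C * (‖x - y‖ / R) ^ ((1 : ℝ) / 5) := (subAt_dist h hsub hR hΛ hM hy hxb hp hpx).1
    have i4 : ⟪px - p, x - y⟫ ≤ ‖px - p‖ * ‖x - y‖ := real_inner_le_norm _ _
    rw [← neg_sub x y, inner_neg_right, norm_neg] at i2
    rw [inner_sub_left] at i4
    simp only [Set.mem_preimage, Set.mem_Iio] at hxc
    rw [Real.norm_eq_abs, abs_le]
    have i5 := mul_le_mul_of_nonneg_right hxc.le (norm_nonneg (x - y))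
    have i6 := mul_le_mul_of_nonneg_right i3 (norm_nonneg (x - y))
    have i7 : 0 ≤ C * (‖x - y‖ / R) ^ ((1 : ℝ) / 5) * ‖x - y‖ :=
      le_trans (mul_nonneg (norm_nonneg _) (norm_nonneg _)) i6
    have i8 : 0 ≤ Λ / 2 * ‖x - y‖ * ‖x - y‖ := by positivity
    constructor <;> nlinarith
  refine ⟨fun y hy => (hgrad y hy).choose_spec.2.differentiableAt, fun y₁ hy₁ y₂ hy₂ => ?_⟩
  obtain ⟨p₁, hp₁, hg₁⟩ := hgrad y₁ hy₁
  obtain ⟨p₂, hp₂, hg₂⟩ := hgrad y₂ hy₂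
  rw [hg₁.gradient, hg₂.gradient]
  exact subAt_dist h hsub hR hΛ hM hy₁ hy₂ hp₁ hp₂

lemma infLap_neg (φ : EuclideanSpace ℝ (Fin d) → ℝ) (z : EuclideanSpace ℝ (Fin d)) :
    infLap (fun x => -φ x) z = -infLap φ z := by
  have e : fderiv ℝ (fun x => -φ x) = fun x => -fderiv ℝ φ x := funext fun x => fderiv_fun_neg
  have g : gradient (fun x => -φ x) z = -gradient φ z := by simp [gradient, fderiv_fun_neg]
  rw [infLap, infLap, g, e, fderiv_fun_neg]
  simp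

lemma IsInfHarmonic.neg (h : IsInfHarmonic Ω u) : IsInfHarmonic Ω fun x => -u x := by
  refine ⟨h.1.neg, fun φ hφ z hz => ⟨fun hl => ?_, fun hl => ?_⟩⟩
  · have := (h.2 (fun x => -φ x) hφ.neg z hz).2
      (hl.neg.congr (Eventually.of_forall fun x => by simp; ring))
    rw [infLap_neg] at this
    linarith
  · have := (h.2 (fun x => -φ x) hφ.neg z hz).1
      (hl.neg.congr (Eventually.of_forall fun x => by simp; ring))
    rw [infLap_neg] at this
    linarith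

/-- Semiconvex or semiconcave infinity-harmonic functions have Hölder continuous gradient. -/
theorem semi_gradient (h : IsInfHarmonic Ω u) (hsub : ball x₀ R ⊆ Ω) (hR : 0 < R) (hΛ : 0 ≤ Λ)
    (hM : ∀ x ∈ ball x₀ R, ∀ x' ∈ ball x₀ R, |u x - u x'| ≤ M)
    (hs : ConvexOn ℝ (ball x₀ R) (fun x => u x + Λ / 2 * ‖x - x₀‖ ^ 2) ∨
      ConcaveOn ℝ (ball x₀ R) (fun x => u x - Λ / 2 * ‖x - x₀‖ ^ 2)) :
    (∀ y ∈ ball x₀ (R / 2), DifferentiableAt ℝ u y) ∧
    ∀ y₁ ∈ ball x₀ (R / 2), ∀ y₂ ∈ ball x₀ (R / 2),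
      ‖gradient u y₂ - gradient u y₁‖ ≤
          1000 * (2 * M / R + Λ * R / 4) * (‖y₂ - y₁‖ / R) ^ ((1 : ℝ) / 5) ∧
      (Λ = 0 → ‖gradient u y₂ - gradient u y₁‖ ≤ 1000 * (2 * M / R) * √(‖y₂ - y₁‖ / R)) := by
  rcases hs with hcv | hcc
  · exact semiconvex_gradient h hsub hR hΛ (fun x hx x' hx' => (abs_le.1 (hM x hx x' hx')).2) hcv
  · obtain ⟨hd, hg⟩ := semiconvex_gradient (M := M) h.neg hsub hR hΛ
      (fun x hx x' hx' => by linarith [(abs_le.1 (hM x hx x' hx')).1])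
      (hcc.neg.congr fun x _ => by simp; ring)
    refine ⟨fun y hy => by simpa using (hd y hy).neg, fun y₁ hy₁ y₂ hy₂ => ?_⟩
    have e : ∀ y, gradient (fun x => -u x) y = -gradient u y := fun y => by
      simp [gradient, fderiv_fun_neg]
    have := hg y₁ hy₁ y₂ hy₂
    rwa [e, e, ← neg_sub', norm_neg] at this

end Vale.Agent.P080.SemiCvx
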